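import Vale.Agent.P093.ALine.Frob

/-!
# P093, part A, block A1 (tube): the nearest rank one projection

For `s : Matrix I I ℂ` with hermitian part `re s`: `near s` is a rank one projection nearest to
`re s` in the Frobenius norm and `dsq s = hsq (re s - near s)` is the square of the distance.

* `isProj_near`, `near_comm`, `dsq_le`;
* `continuous_dsq`; `near_unique`, `continuousOn_near` on the tube `{dsq < 1/16}`;
* `fn_near_sub_le`, `fn_near_expand` : first order expansion at a rank one projection;
* `isCompact_tube` : properness.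
-/

open Matrix Filter Topology

noncomputable section

namespace Vale.Agent.P093.ALine

open Vale.Agent.P251.G (IsProj nsq nsq_nonneg nsq_eq_zero isCompact_isProj)

variable {I : Type} [Fintype I]

/-! ### Existence of a nearest rank one projection -/

theorem hsq_sub_proj {A P : Matrix I I ℂ} (hA : Aᴴ = A) (hP : IsProj 1 P) :
    hsq (A - P) = hsq A + 1 - 2 * (A * P).trace.re := by
  have h1 : ((hsq (A - P) : ℝ) : ℂ) = (hsq A : ℂ) + 1 - 2 * (A * P).trace := by
    rw [hsq_eq_trace, hsq_eq_trace, conjTranspose_sub, hA, hP.herm, Matrix.sub_mul, Matrix.mul_sub,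
      Matrix.mul_sub, trace_sub, trace_sub, trace_sub, hP.idem, hP.trace, trace_mul_comm P A]
    push_cast
    ring
  have h2 := congrArg Complex.re h1
  simpa using h2

/-- diagonal entries of a projection are nonnegative -/
theorem IsProj.diag_re_nonneg {n : ℕ} {Q : Matrix I I ℂ} (hQ : IsProj n Q) (i : I) :
    0 ≤ (Q i i).re := by
  rw [hQ.diag_eq i, Complex.ofReal_re]
  exact nsq_nonneg _

theorem exists_near [Nonempty I] {A : Matrix I I ℂ} (hA : Aᴴ = A) :
    ∃ P, IsProj 1 P ∧ A * P = P * A ∧ ∀ P', IsProj 1 P' → hsq (A - P) ≤ hsq (A - P') := by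
  classical
  have hA' : A.IsHermitian := hA
  set U : Matrix I I ℂ := (hA'.eigenvectorUnitary : Matrix I I ℂ) with hU
  set D : Matrix I I ℂ := diagonal (fun i => ((hA'.eigenvalues i : ℝ) : ℂ)) with hD
  have hUU : Uᴴ * U = 1 := Unitary.coe_star_mul_self hA'.eigenvectorUnitary
  have hUU' : U * Uᴴ = 1 := Unitary.coe_mul_star_self hA'.eigenvectorUnitary
  have hspec : A = U * D * Uᴴ := by
    have := hA'.spectral_theorem
    rw [Unitary.conjStarAlgAut_apply] at this
    exact this
  obtain ⟨j, hj⟩ := Finite.exists_max hA'.eigenvalues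
  let E : Matrix I I ℂ := diagonal (Pi.single j 1)
  have hE : IsProj 1 E := by
    refine ⟨?_, ?_, ?_⟩
    · rw [diagonal_mul_diagonal]
      congr 1
      ext i
      by_cases h : i = j
      · subst h; simp
      · simp [h]
    · rw [diagonal_conjTranspose]
      congr 1
      ext i
      by_cases h : i = j
      · subst h; simp
      · simp [h]
    · simp [E, trace_diagonal]
  have hP : IsProj 1 (U * E * Uᴴ) := hE.conj (by rw [hUU, Matrix.one_mul])
  refine ⟨U * E * Uᴴ, hP, ?_, ?_⟩
  · have hDE : D * E = E * D := by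
      rw [diagonal_mul_diagonal, diagonal_mul_diagonal]
      congr 1
      ext i
      exact mul_comm _ _
    rw [hspec]
    calc U * D * Uᴴ * (U * E * Uᴴ) = U * (D * (Uᴴ * U) * E) * Uᴴ := by
          simp only [Matrix.mul_assoc]
      _ = U * (E * (Uᴴ * U) * D) * Uᴴ := by
          rw [hUU, Matrix.mul_one, Matrix.mul_one, hDE]
      _ = _ := by simp only [Matrix.mul_assoc]
  · intro P' hP'
    rw [hsq_sub_proj hA hP, hsq_sub_proj hA hP']
    have key : ∀ Q, IsProj 1 Q → (A * (U * Q * Uᴴ)).trace.re =
        ∑ i, hA'.eigenvalues i * (Q i i).re := by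
      intro Q _
      have : (A * (U * Q * Uᴴ)).trace = (D * Q).trace := by
        conv_lhs => rw [hspec]
        calc (U * D * Uᴴ * (U * Q * Uᴴ)).trace = (U * (D * (Uᴴ * U) * Q) * Uᴴ).trace := by
              simp only [Matrix.mul_assoc]
          _ = (U * (D * Q) * Uᴴ).trace := by rw [hUU, Matrix.mul_one]
          _ = _ := by rw [trace_mul_comm, ← Matrix.mul_assoc, hUU, Matrix.one_mul]
      rw [this, Matrix.trace, Complex.re_sum]
      refine Finset.sum_congr rfl fun i _ => ?_
      rw [Matrix.diag_apply, hD, diagonal_mul, Complex.re_ofReal_mul]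
    have h1 := key E hE
    have hQ : IsProj 1 (Uᴴ * P' * U) := by
      have := hP'.conj (u := Uᴴ) (by rw [conjTranspose_conjTranspose, hUU', Matrix.one_mul])
      rwa [conjTranspose_conjTranspose] at this
    have h2 := key _ hQ
    have h3 : U * (Uᴴ * P' * U) * Uᴴ = P' := by
      calc U * (Uᴴ * P' * U) * Uᴴ = (U * Uᴴ) * P' * (U * Uᴴ) := by simp only [Matrix.mul_assoc]
        _ = P' := by rw [hUU', Matrix.one_mul, Matrix.mul_one]
    rw [h3] at h2
    have h4 : ∑ i, hA'.eigenvalues i * (E i i).re = hA'.eigenvalues j := by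
      rw [Finset.sum_eq_single j]
      · simp [E]
      · intro b _ hb
        simp [E, hb]
      · intro h
        exact absurd (Finset.mem_univ j) h
    have h5 : ∑ i, hA'.eigenvalues i * ((Uᴴ * P' * U) i i).re ≤ hA'.eigenvalues j := by
      have h6 : ∑ i, ((Uᴴ * P' * U) i i).re = 1 := by
        have h7 := congrArg Complex.re hQ.trace
        rw [Matrix.trace, Complex.re_sum] at h7
        simpa using h7
      calc ∑ i, hA'.eigenvalues i * ((Uᴴ * P' * U) i i).re
          ≤ ∑ i, hA'.eigenvalues j * ((Uᴴ * P' * U) i i).re :=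
            Finset.sum_le_sum fun i _ =>
              mul_le_mul_of_nonneg_right (hj i) (IsProj.diag_re_nonneg hQ i)
        _ = hA'.eigenvalues j := by rw [← Finset.mul_sum, h6, mul_one]
    rw [h1, h4, h2]
    linarith

/-! ### `near` and `dsq` -/

section near

variable [Nonempty I]

/-- a rank one projection nearest to `re s` -/
def near (s : Matrix I I ℂ) : Matrix I I ℂ := (exists_near (re_herm s)).choose

/-- squared distance of `re s` to the rank one projections -/
def dsq (s : Matrix I I ℂ) : ℝ := hsq (re s - near s)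

theorem isProj_near (s : Matrix I I ℂ) : IsProj 1 (near s) :=
  (exists_near (re_herm s)).choose_spec.1

theorem near_comm (s : Matrix I I ℂ) : re s * near s = near s * re s :=
  (exists_near (re_herm s)).choose_spec.2.1

theorem dsq_le (s : Matrix I I ℂ) {P : Matrix I I ℂ} (hP : IsProj 1 P) :
    dsq s ≤ hsq (re s - P) :=
  (exists_near (re_herm s)).choose_spec.2.2 P hP

theorem dsq_nonneg (s : Matrix I I ℂ) : 0 ≤ dsq s := hsq_nonneg _

theorem sqrt_dsq (s : Matrix I I ℂ) : √(dsq s) = fn (re s - near s) := rfl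

theorem fn_near_le (s : Matrix I I ℂ) {P : Matrix I I ℂ} (hP : IsProj 1 P) :
    fn (re s - near s) ≤ fn (re s - P) := Real.sqrt_le_sqrt (dsq_le s hP)

theorem sqrt_dsq_sub_le (s s' : Matrix I I ℂ) : √(dsq s) - √(dsq s') ≤ fn (s - s') := by
  have h1 : fn (re s - near s') ≤ fn (re s - re s') + fn (re s' - near s') := by
    have := fn_add_le (re s - re s') (re s' - near s')
    rwa [sub_add_sub_cancel] at this
  have h2 := fn_near_le s (isProj_near s')
  have h3 : re s - re s' = re (s - s') := by
    rw [re, re, re, conjTranspose_sub, ← smul_sub]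
    congr 1
    abel
  have h4 := fn_re_le (s - s')
  rw [sqrt_dsq, sqrt_dsq]
  rw [h3] at h1
  linarith

theorem continuous_sqrt_dsq : Continuous fun s : Matrix I I ℂ => √(dsq s) := by
  rw [continuous_iff_continuousAt]
  intro s
  have h1 : Tendsto (fun s' : Matrix I I ℂ => fn (s' - s)) (𝓝 s) (𝓝 0) := by
    have : Continuous fun s' : Matrix I I ℂ => fn (s' - s) := by fun_prop
    have h2 := this.tendsto s
    simpa using h2
  rw [ContinuousAt, tendsto_iff_dist_tendsto_zero]
  refine squeeze_zero (fun _ => dist_nonneg) (fun s' => ?_) h1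
  rw [Real.dist_eq, abs_le]
  constructor
  · have := sqrt_dsq_sub_le s s'
    rw [fn_sub_comm] at this
    linarith
  · exact sqrt_dsq_sub_le s' s

@[fun_prop] theorem continuous_dsq : Continuous (dsq : Matrix I I ℂ → ℝ) := by
  have : (dsq : Matrix I I ℂ → ℝ) = fun s => √(dsq s) ^ 2 := by
    ext s
    rw [Real.sq_sqrt (dsq_nonneg s)]
  rw [this]
  exact continuous_sqrt_dsq.pow 2

end near

/-- two projections of the same rank which commute with `A` and are close to `A` are equal -/
theorem proj_unique {n : ℕ} {A P P' : Matrix I I ℂ} (hP : IsProj n P) (hP' : IsProj n P')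
    (h1 : A * P = P * A) (h2 : A * P' = P' * A) (h3 : fn (A - P) + fn (A - P') < 1) : P = P' := by
  classical
  set Y := (1 - P) * P' with hY
  have e1 : Y = (A - P) * Y - Y * (A - P') := by
    have a1 : (A - P) * (1 - P) = (1 - P) * A := by
      rw [Matrix.mul_sub, Matrix.mul_one, Matrix.sub_mul A P P, hP.idem, h1, Matrix.sub_mul 1 P A,
        Matrix.one_mul]
      abel
    have a2 : P' * (A - P') = A * P' - P' := by
      rw [Matrix.mul_sub, hP'.idem, h2]
    rw [hY, ← Matrix.mul_assoc, a1, Matrix.mul_assoc (1 - P) P', a2, Matrix.mul_sub (1 - P),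
      Matrix.mul_assoc]
    abel
  have e2 : fn Y ≤ fn (A - P) * fn Y + fn Y * fn (A - P') := by
    calc fn Y = fn ((A - P) * Y - Y * (A - P')) := by rw [← e1]
      _ ≤ fn ((A - P) * Y) + fn (Y * (A - P')) := fn_sub_le _ _
      _ ≤ _ := add_le_add (fn_mul_le _ _) (fn_mul_le _ _)
  have e3 : fn Y = 0 := by
    have := fn_nonneg Y
    nlinarith
  have e4 : P' = P * P' := by
    have := fn_eq_zero.mp e3
    rw [hY, Matrix.sub_mul, Matrix.one_mul, sub_eq_zero] at this
    exact this
  have e5 : P' = P' * P := by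
    have := congrArg conjTranspose e4
    rwa [conjTranspose_mul, hP.herm, hP'.herm] at this
  have e6 : (P - P') * (P - P')ᴴ = P - P' := by
    rw [conjTranspose_sub, hP.herm, hP'.herm, Matrix.sub_mul, Matrix.mul_sub, Matrix.mul_sub,
      hP.idem, hP'.idem, ← e4, ← e5]
    abel
  have e7 : hsq (P - P') = 0 := by
    have : ((hsq (P - P') : ℝ) : ℂ) = 0 := by
      rw [hsq_eq_trace, e6, trace_sub, hP.trace, hP'.trace, sub_self]
    exact_mod_cast this
  exact sub_eq_zero.mp (hsq_eq_zero.mp e7)

section near

variable [Nonempty I]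

/-- the open tube -/
def tube (I : Type) [Fintype I] [Nonempty I] : Set (Matrix I I ℂ) := {s | dsq s < 1 / 16}

theorem isOpen_tube : IsOpen (tube I) := isOpen_lt continuous_dsq continuous_const

theorem fn_near_lt {s : Matrix I I ℂ} (hs : s ∈ tube I) : fn (re s - near s) < 1 / 4 := by
  rw [← sqrt_dsq, Real.sqrt_lt' (by norm_num)]
  have : dsq s < 1 / 16 := hs
  linarith

/-- `near s` is the only rank one projection commuting with `re s` and close to it -/
theorem near_unique {s P : Matrix I I ℂ} (hP : IsProj 1 P) (h1 : re s * P = P * re s)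
    (h2 : hsq (re s - P) < 1 / 16) : near s = P := by
  have h3 : s ∈ tube I := (dsq_le s hP).trans_lt h2
  have h4 : fn (re s - P) < 1 / 4 := by
    rw [fn, Real.sqrt_lt' (by norm_num)]
    linarith
  refine proj_unique (isProj_near s) hP (near_comm s) h1 ?_
  have := fn_near_lt h3
  linarith

theorem near_of_isProj {P : Matrix I I ℂ} (hP : IsProj 1 P) : near P = P := by
  refine near_unique hP ?_ ?_
  · rw [re_of_herm hP.herm]
  · rw [re_of_herm hP.herm, sub_self, hsq_zero]; norm_num

theorem near_add_smul {A B : Matrix I I ℂ} (hA : Aᴴ = A) (hB : Bᴴ = B) :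
    near (A + Complex.I • B) = near A := by
  have h : re (A + Complex.I • B) = re A := by rw [re_add_smul hA hB, re_of_herm hA]
  unfold near
  congr 1
  ext P
  rw [h]

theorem tendsto_near {s : Matrix I I ℂ} (hs : s ∈ tube I) :
    Tendsto near (𝓝 s) (𝓝 (near s)) := by
  refine (isCompact_isProj 1 I).tendsto_nhds_of_unique_mapClusterPt
    (Eventually.of_forall fun s' => isProj_near s') ?_
  intro P hP hc
  rw [mapClusterPt_iff_ultrafilter] at hc
  obtain ⟨U, hU, hT⟩ := hc
  have hP' : IsProj 1 P := hP
  have r1 : Tendsto (fun s' : Matrix I I ℂ => re s') U (𝓝 (re s)) :=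
    (continuous_re.tendsto s).mono_left hU
  have r2 : Tendsto (fun s' : Matrix I I ℂ => (re s', near s')) U (𝓝 (re s, P)) :=
    r1.prodMk_nhds hT
  have h1 : re s * P = P * re s := by
    let g : Matrix I I ℂ × Matrix I I ℂ → Matrix I I ℂ := fun q => q.1 * q.2 - q.2 * q.1
    have hg : Continuous g := by
      change Continuous fun q : Matrix I I ℂ × Matrix I I ℂ => q.1 * q.2 - q.2 * q.1
      fun_prop
    have c1 : Tendsto (g ∘ fun s' : Matrix I I ℂ => (re s', near s')) U (𝓝 (g (re s, P))) :=
      (hg.tendsto (re s, P)).comp r2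
    have c2 : (g ∘ fun s' : Matrix I I ℂ => (re s', near s')) = fun _ => 0 := by
      funext s'
      exact sub_eq_zero.mpr (near_comm s')
    rw [c2] at c1
    exact sub_eq_zero.mp (tendsto_nhds_unique c1 tendsto_const_nhds)
  have h2 : hsq (re s - P) = dsq s := by
    let g : Matrix I I ℂ × Matrix I I ℂ → ℝ := fun q => hsq (q.1 - q.2)
    have hg : Continuous g := by
      change Continuous fun q : Matrix I I ℂ × Matrix I I ℂ => hsq (q.1 - q.2)
      fun_prop
    have c1 : Tendsto (g ∘ fun s' : Matrix I I ℂ => (re s', near s')) U (𝓝 (g (re s, P))) :=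
      (hg.tendsto (re s, P)).comp r2
    have c2 : (g ∘ fun s' : Matrix I I ℂ => (re s', near s')) = dsq := rfl
    rw [c2] at c1
    exact tendsto_nhds_unique c1 ((continuous_dsq.tendsto s).mono_left hU)
  exact (near_unique hP' h1 (by rw [h2]; exact hs)).symm

theorem continuousAt_near {s : Matrix I I ℂ} (hs : s ∈ tube I) : ContinuousAt near s :=
  tendsto_near hs

theorem continuousOn_near : ContinuousOn near (tube I) := fun _ hs =>
  (continuousAt_near hs).continuousWithinAt

/-! ### First order expansion -/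

/-- the off-diagonal part of `η` with respect to `P` -/
def offd [DecidableEq I] (P η : Matrix I I ℂ) : Matrix I I ℂ :=
  P * η * (1 - P) + (1 - P) * η * P

theorem fn_near_sub_le {P η : Matrix I I ℂ} (hP : IsProj 1 P) (hη : ηᴴ = η) :
    fn (near (P + η) - P) ≤ 2 * fn η := by
  have h0 : re (P + η) = P + η := by
    apply re_of_herm
    rw [conjTranspose_add, hP.herm, hη]
  have h1 := fn_near_le (P + η) hP
  rw [h0, add_sub_cancel_left] at h1
  have h2 : near (P + η) - P = η - (P + η - near (P + η)) := by abel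
  rw [h2]
  calc fn (η - (P + η - near (P + η))) ≤ fn η + fn (P + η - near (P + η)) := fn_sub_le _ _
    _ ≤ _ := by linarith

theorem fn_near_expand [DecidableEq I] {P η : Matrix I I ℂ} (hP : IsProj 1 P) (hη : ηᴴ = η) :
    fn (near (P + η) - P - offd P η) ≤ 16 * fn η ^ 2 := by
  have h0 : re (P + η) = P + η := by
    apply re_of_herm
    rw [conjTranspose_add, hP.herm, hη]
  set D := near (P + η) - P with hD
  have hN : near (P + η) = P + D := by rw [hD]; abel
  have hDb := fn_near_sub_le hP hη
  rw [← hD] at hDb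
  have hidem : P * D + D * P + D * D = D := by
    have := (isProj_near (P + η)).idem
    rw [hN, Matrix.add_mul, Matrix.mul_add, Matrix.mul_add, hP.idem] at this
    have h2 : P * D + D * P + D * D = (P + P * D + (D * P + D * D)) - P := by abel
    rw [h2, this]
    abel
  have hcomm : P * D + η * P + η * D = P * η + D * P + D * η := by
    have := near_comm (P + η)
    rw [h0, hN, Matrix.add_mul, Matrix.mul_add, Matrix.mul_add, Matrix.add_mul, Matrix.mul_add,
      Matrix.mul_add] at this
    have h2 : P * D + η * P + η * D = (P * P + P * D + (η * P + η * D)) - P * P := by abel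
    rw [h2, this]
    abel
  have hPP := hP.idem
  have hPh := hP.herm
  set Q := 1 - P with hQ
  have hQQ : Q * Q = Q := compl_idem hPP
  have hQh : Qᴴ = Q := compl_herm hPh
  have hPQ : P * Q = 0 := by rw [hQ, Matrix.mul_sub, Matrix.mul_one, hPP, sub_self]
  have hQP : Q * P = 0 := by rw [hQ, Matrix.sub_mul, Matrix.one_mul, hPP, sub_self]
  have hsum : P + Q = 1 := by rw [hQ]; abel
  -- diagonal blocks
  have d1 : P * D * P = -(P * (D * D) * P) := by
    have := congrArg (fun X => P * X * P) hidem
    simp only [Matrix.mul_add, Matrix.add_mul] at this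
    have e1 : P * (P * D) * P = P * D * P := by rw [← Matrix.mul_assoc, hPP]
    have e2 : P * (D * P) * P = P * D * P := by
      rw [← Matrix.mul_assoc, Matrix.mul_assoc _ P P, hPP]
    rw [e1, e2] at this
    have h3 : P * D * P + P * (D * D) * P = 0 := by
      have h4 : P * D * P + P * (D * D) * P =
          (P * D * P + P * D * P + P * (D * D) * P) - P * D * P := by abel
      rw [h4, this, sub_self]
    exact eq_neg_of_add_eq_zero_left h3
  have d2 : Q * D * Q = Q * (D * D) * Q := by
    have := congrArg (fun X => Q * X * Q) hidem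
    simp only [Matrix.mul_add, Matrix.add_mul] at this
    have e1 : Q * (P * D) * Q = 0 := by rw [← Matrix.mul_assoc, hQP]; simp
    have e2 : Q * (D * P) * Q = 0 := by
      rw [← Matrix.mul_assoc, Matrix.mul_assoc _ P Q, hPQ]; simp
    rw [e1, e2, zero_add, zero_add] at this
    exact this.symm
  have d3 : P * D * Q = P * η * Q + P * (D * η - η * D) * Q := by
    have := congrArg (fun X => P * X * Q) hcomm
    simp only [Matrix.mul_add, Matrix.add_mul] at this
    have e1 : P * (P * D) * Q = P * D * Q := by rw [← Matrix.mul_assoc, hPP]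
    have e2 : P * (η * P) * Q = 0 := by
      rw [← Matrix.mul_assoc, Matrix.mul_assoc _ P Q, hPQ]; simp
    have e3 : P * (P * η) * Q = P * η * Q := by rw [← Matrix.mul_assoc, hPP]
    have e4 : P * (D * P) * Q = 0 := by
      rw [← Matrix.mul_assoc, Matrix.mul_assoc _ P Q, hPQ]; simp
    rw [e1, e2, e3, e4, add_zero, add_zero] at this
    rw [Matrix.mul_sub P (D * η), Matrix.sub_mul (P * (D * η))]
    have h3 : P * D * Q = (P * D * Q + P * (η * D) * Q) - P * (η * D) * Q := by abel
    rw [h3, this]
    abel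
  have d4 : Q * D * P = Q * η * P + Q * (η * D - D * η) * P := by
    have := congrArg (fun X => Q * X * P) hcomm
    simp only [Matrix.mul_add, Matrix.add_mul] at this
    have e1 : Q * (P * D) * P = 0 := by rw [← Matrix.mul_assoc, hQP]; simp
    have e2 : Q * (η * P) * P = Q * η * P := by
      rw [← Matrix.mul_assoc, Matrix.mul_assoc _ P P, hPP]
    have e3 : Q * (P * η) * P = 0 := by rw [← Matrix.mul_assoc, hQP]; simp
    have e4 : Q * (D * P) * P = Q * D * P := by
      rw [← Matrix.mul_assoc, Matrix.mul_assoc _ P P, hPP]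
    rw [e1, e2, e3, e4, zero_add, zero_add] at this
    rw [Matrix.mul_sub Q (η * D), Matrix.sub_mul (Q * (η * D))]
    have h3 : Q * D * P = (Q * D * P + Q * (D * η) * P) - Q * (D * η) * P := by abel
    rw [h3, ← this]
    abel
  have hsplit : D = P * D * P + P * D * Q + Q * D * P + Q * D * Q := by
    calc D = (P + Q) * D * (P + Q) := by rw [hsum]; simp
      _ = _ := by
        rw [Matrix.add_mul, Matrix.mul_add, Matrix.add_mul, Matrix.add_mul]
        abel
  have hfin : D - offd P η = -(P * (D * D) * P) + P * (D * η - η * D) * Q +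
      Q * (η * D - D * η) * P + Q * (D * D) * Q := by
    have : D - offd P η = (P * D * P + P * D * Q + Q * D * P + Q * D * Q) - offd P η := by
      rw [← hsplit]
    rw [this, d1, d2, d3, d4, offd, ← hQ]
    abel
  have hsand : ∀ {R S : Matrix I I ℂ} (X : Matrix I I ℂ), R * R = R → Rᴴ = R → S * S = S →
      Sᴴ = S → fn (R * X * S) ≤ fn X := by
    intro R S X h1 h2 h3 h4
    exact (fn_mul_proj_le h3 h4 _).trans (fn_proj_mul_le h1 h2 _)
  have hDn := fn_nonneg D
  have hηn := fn_nonneg η
  have b1 : fn (-(P * (D * D) * P)) ≤ 4 * fn η ^ 2 := by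
    rw [fn_neg]
    calc fn (P * (D * D) * P) ≤ fn (D * D) := hsand _ hPP hPh hPP hPh
      _ ≤ fn D * fn D := fn_mul_le _ _
      _ ≤ 4 * fn η ^ 2 := by nlinarith
  have b4 : fn (Q * (D * D) * Q) ≤ 4 * fn η ^ 2 := by
    calc fn (Q * (D * D) * Q) ≤ fn (D * D) := hsand _ hQQ hQh hQQ hQh
      _ ≤ fn D * fn D := fn_mul_le _ _
      _ ≤ 4 * fn η ^ 2 := by nlinarith
  have b5 : fn (D * η - η * D) ≤ 4 * fn η ^ 2 := by
    calc fn (D * η - η * D) ≤ fn (D * η) + fn (η * D) := fn_sub_le _ _
      _ ≤ fn D * fn η + fn η * fn D := add_le_add (fn_mul_le _ _) (fn_mul_le _ _)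
      _ ≤ 4 * fn η ^ 2 := by nlinarith
  have b2 : fn (P * (D * η - η * D) * Q) ≤ 4 * fn η ^ 2 :=
    (hsand _ hPP hPh hQQ hQh).trans b5
  have b3 : fn (Q * (η * D - D * η) * P) ≤ 4 * fn η ^ 2 := by
    refine (hsand _ hQQ hQh hPP hPh).trans ?_
    rw [fn_sub_comm]
    exact b5
  rw [hfin]
  calc fn (-(P * (D * D) * P) + P * (D * η - η * D) * Q + Q * (η * D - D * η) * P +
        Q * (D * D) * Q)
      ≤ fn (-(P * (D * D) * P)) + fn (P * (D * η - η * D) * Q) + fn (Q * (η * D - D * η) * P) +
        fn (Q * (D * D) * Q) :=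
        (fn_add_le _ _).trans (add_le_add_left ((fn_add_le _ _).trans
          (add_le_add_left (fn_add_le _ _) _)) _)
    _ ≤ 16 * fn η ^ 2 := by linarith

/-! ### Properness -/

theorem fn_re_le_of_dsq (s : Matrix I I ℂ) : fn (re s) ≤ √(dsq s) + 1 := by
  have h := fn_add_le (re s - near s) (near s)
  rw [sub_add_cancel, fn_eq_one_of_isProj (isProj_near s)] at h
  exact h

theorem isCompact_tube (r r' : ℝ) :
    IsCompact {s : Matrix I I ℂ | dsq s ≤ r ∧ hsq (im s) ≤ r'} := by
  refine (isCompact_hsq_le ((√r + 1) ^ 2 + r')).of_isClosed_subset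
    ((isClosed_le continuous_dsq continuous_const).inter
      (isClosed_le (continuous_hsq.comp continuous_im) continuous_const)) ?_
  rintro s ⟨h1, h2⟩
  change hsq s ≤ _
  rw [hsq_re_add_im, ← fn_sq (re s)]
  have h3 := fn_re_le_of_dsq s
  have h4 : √(dsq s) ≤ √r := Real.sqrt_le_sqrt h1
  have h5 := fn_nonneg (re s)
  have h6 : fn (re s) ^ 2 ≤ (√r + 1) ^ 2 := by
    have : fn (re s) ≤ √r + 1 := h3.trans (by linarith)
    gcongr
  exact add_le_add h6 h2

end near

end Vale.Agent.P093.ALine
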