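import Mathlib.Analysis.Matrix.Normed
import Mathlib.Analysis.Matrix.Spectrum
import Vale.Agent.P251.G.ThMap

/-!
# P093, part A, block A1: the Frobenius norm

`hsq X = ∑ |X i j|²`, `fn X = √(hsq X)` for complex matrices: norm properties, submultiplicativity,
Pythagoras for projections, hermitian and skew hermitian parts.
-/

open Matrix Filter Topology

noncomputable section

namespace Vale.Agent.P093.ALine

open Vale.Agent.P251.G (IsProj nsq nsq_nonneg nsq_eq_zero continuous_nsq nsq_eq_dotProduct)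

variable {I J K : Type} [Fintype I] [Fintype J] [Fintype K]

/-- squared Frobenius norm -/
def hsq (X : Matrix I J ℂ) : ℝ := ∑ i, nsq (X i)

/-- Frobenius norm -/
def fn (X : Matrix I J ℂ) : ℝ := √(hsq X)

theorem hsq_nonneg (X : Matrix I J ℂ) : 0 ≤ hsq X := Finset.sum_nonneg fun _ _ => nsq_nonneg _

theorem fn_nonneg (X : Matrix I J ℂ) : 0 ≤ fn X := Real.sqrt_nonneg _

theorem fn_sq (X : Matrix I J ℂ) : fn X ^ 2 = hsq X := Real.sq_sqrt (hsq_nonneg X)

section frob

attribute [local instance] Matrix.frobeniusSeminormedAddCommGroup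

theorem fn_eq_norm (X : Matrix I J ℂ) : fn X = ‖X‖ := by
  rw [Matrix.frobenius_norm_def, fn, hsq, Real.sqrt_eq_rpow]
  congr 1
  refine Finset.sum_congr rfl fun i _ => ?_
  refine Finset.sum_congr rfl fun j _ => ?_
  rw [Complex.normSq_eq_norm_sq]
  norm_cast

theorem fn_add_le (X Y : Matrix I J ℂ) : fn (X + Y) ≤ fn X + fn Y := by
  simp only [fn_eq_norm]; exact norm_add_le _ _

theorem fn_sub_le (X Y : Matrix I J ℂ) : fn (X - Y) ≤ fn X + fn Y := by
  simp only [fn_eq_norm]; exact norm_sub_le _ _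

@[simp] theorem fn_neg (X : Matrix I J ℂ) : fn (-X) = fn X := by
  simp only [fn_eq_norm]; exact norm_neg _

theorem fn_sub_comm (X Y : Matrix I J ℂ) : fn (X - Y) = fn (Y - X) := by
  simp only [fn_eq_norm]; exact norm_sub_rev _ _

theorem fn_mul_le (X : Matrix I J ℂ) (Y : Matrix J K ℂ) : fn (X * Y) ≤ fn X * fn Y := by
  simp only [fn_eq_norm]; exact Matrix.frobenius_norm_mul _ _

@[simp] theorem fn_conjTranspose (X : Matrix I J ℂ) : fn Xᴴ = fn X := by
  simp only [fn_eq_norm]; exact Matrix.frobenius_norm_conjTranspose _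

attribute [local instance] Matrix.frobeniusNormSMulClass in
theorem fn_smul (c : ℂ) (X : Matrix I J ℂ) : fn (c • X) = ‖c‖ * fn X := by
  simp only [fn_eq_norm]; exact norm_smul _ _

end frob

@[simp] theorem hsq_zero : hsq (0 : Matrix I J ℂ) = 0 :=
  Finset.sum_eq_zero fun _ _ => nsq_eq_zero.mpr rfl

@[simp] theorem fn_zero : fn (0 : Matrix I J ℂ) = 0 := by simp [fn]

theorem hsq_eq_zero {X : Matrix I J ℂ} : hsq X = 0 ↔ X = 0 := by
  constructor
  · intro h
    have h1 := (Finset.sum_eq_zero_iff_of_nonneg (fun i _ => nsq_nonneg (X i))).mp h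
    ext i j
    exact congrFun (nsq_eq_zero.mp (h1 i (Finset.mem_univ i))) j
  · rintro rfl
    exact hsq_zero

theorem fn_eq_zero {X : Matrix I J ℂ} : fn X = 0 ↔ X = 0 := by
  rw [fn, Real.sqrt_eq_zero (hsq_nonneg X), hsq_eq_zero]

@[fun_prop] theorem continuous_hsq : Continuous (hsq : Matrix I J ℂ → ℝ) := by
  unfold hsq
  refine continuous_finsetSum _ fun i _ => ?_
  exact continuous_nsq.comp (continuous_apply i)

@[fun_prop] theorem continuous_fn : Continuous (fn : Matrix I J ℂ → ℝ) :=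
  Real.continuous_sqrt.comp continuous_hsq

/-- the Frobenius norm through the trace -/
theorem hsq_eq_trace (X : Matrix I J ℂ) : ((hsq X : ℝ) : ℂ) = (X * Xᴴ).trace := by
  rw [hsq, Complex.ofReal_sum, Matrix.trace]
  refine Finset.sum_congr rfl fun i _ => ?_
  rw [nsq_eq_dotProduct, Matrix.diag_apply, Matrix.mul_apply, dotProduct]
  refine Finset.sum_congr rfl fun j _ => ?_
  rw [conjTranspose_apply, Pi.star_apply, mul_comm]

theorem hsq_eq_trace' (X : Matrix I J ℂ) : ((hsq X : ℝ) : ℂ) = (Xᴴ * X).trace := by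
  rw [hsq_eq_trace, trace_mul_comm]

theorem hsq_conjTranspose (X : Matrix I J ℂ) : hsq Xᴴ = hsq X := by
  rw [← fn_sq, fn_conjTranspose, fn_sq]

theorem hsq_eq_one_of_isProj {P : Matrix I I ℂ} (h : IsProj 1 P) : hsq P = 1 := by
  have := hsq_eq_trace P
  rw [h.herm, h.idem, h.trace] at this
  exact_mod_cast this

theorem fn_eq_one_of_isProj {P : Matrix I I ℂ} (h : IsProj 1 P) : fn P = 1 := by
  rw [fn, hsq_eq_one_of_isProj h, Real.sqrt_one]

/-- Pythagoras: `X = P X + (1 - P) X` is an orthogonal decomposition -/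
theorem hsq_proj_add [DecidableEq I] {P : Matrix I I ℂ} (h1 : P * P = P) (h2 : Pᴴ = P)
    (X : Matrix I J ℂ) : hsq X = hsq (P * X) + hsq ((1 - P) * X) := by
  have : ((hsq X : ℝ) : ℂ) = ((hsq (P * X) + hsq ((1 - P) * X) : ℝ) : ℂ) := by
    rw [Complex.ofReal_add, hsq_eq_trace', hsq_eq_trace', hsq_eq_trace', ← trace_add]
    congr 1
    rw [conjTranspose_mul, conjTranspose_mul, conjTranspose_sub, conjTranspose_one, h2]
    have e1 : Xᴴ * P * (P * X) = Xᴴ * P * X := by
      rw [Matrix.mul_assoc, ← Matrix.mul_assoc P P X, h1, Matrix.mul_assoc]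
    have e2 : (1 - P) * ((1 - P) * X) = (1 - P) * X := by
      rw [← Matrix.mul_assoc, Matrix.sub_mul 1 P (1 - P), Matrix.mul_sub P, h1]
      simp
    rw [e1, Matrix.mul_assoc Xᴴ (1 - P), e2, Matrix.sub_mul, Matrix.mul_sub, Matrix.one_mul,
      Matrix.mul_assoc]
    abel
  exact_mod_cast this

theorem fn_proj_mul_le {P : Matrix I I ℂ} (h1 : P * P = P) (h2 : Pᴴ = P)
    (X : Matrix I J ℂ) : fn (P * X) ≤ fn X := by
  classical
  refine Real.sqrt_le_sqrt ?_
  rw [hsq_proj_add h1 h2 X]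
  linarith [hsq_nonneg ((1 - P) * X)]

theorem fn_mul_proj_le {P : Matrix J J ℂ} (h1 : P * P = P) (h2 : Pᴴ = P)
    (X : Matrix I J ℂ) : fn (X * P) ≤ fn X := by
  rw [← fn_conjTranspose (X * P), conjTranspose_mul, h2, ← fn_conjTranspose X]
  exact fn_proj_mul_le h1 h2 _

theorem compl_idem [DecidableEq I] {P : Matrix I I ℂ} (h1 : P * P = P) :
    (1 - P) * (1 - P) = 1 - P := by
  rw [Matrix.sub_mul 1 P (1 - P), Matrix.mul_sub P, h1]; simp

omit [Fintype I] in
theorem compl_herm [DecidableEq I] {P : Matrix I I ℂ} (h2 : Pᴴ = P) : (1 - P)ᴴ = 1 - P := by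
  rw [conjTranspose_sub, conjTranspose_one, h2]

/-! ### Hermitian and skew hermitian parts -/

/-- hermitian part -/
def re (s : Matrix I I ℂ) : Matrix I I ℂ := (1 / 2 : ℂ) • (s + sᴴ)

/-- `s = re s + i im s` -/
def im (s : Matrix I I ℂ) : Matrix I I ℂ := (-Complex.I / 2 : ℂ) • (s - sᴴ)

omit [Fintype I] in
theorem re_herm (s : Matrix I I ℂ) : (re s)ᴴ = re s := by
  rw [re, conjTranspose_smul, conjTranspose_add, conjTranspose_conjTranspose, add_comm sᴴ s]
  congr 1
  simp

omit [Fintype I] in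
theorem im_herm (s : Matrix I I ℂ) : (im s)ᴴ = im s := by
  rw [im, conjTranspose_smul, conjTranspose_sub, conjTranspose_conjTranspose, ← neg_sub s sᴴ,
    smul_neg, ← neg_smul]
  congr 1
  simp [neg_div]

omit [Fintype I] in
theorem re_add_im (s : Matrix I I ℂ) : re s + Complex.I • im s = s := by
  rw [re, im, smul_smul]
  ext i j
  simp only [Matrix.add_apply, Matrix.smul_apply, Matrix.sub_apply, smul_eq_mul]
  linear_combination (-(1 / 2) * (s i j - sᴴ i j)) * Complex.I_sq

omit [Fintype I] in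
theorem re_add_smul {A B : Matrix I I ℂ} (hA : Aᴴ = A) (hB : Bᴴ = B) :
    re (A + Complex.I • B) = A := by
  rw [re, conjTranspose_add, conjTranspose_smul, hA, hB]
  ext i j
  simp only [Matrix.add_apply, Matrix.smul_apply, smul_eq_mul, Complex.star_def, Complex.conj_I]
  ring

omit [Fintype I] in
theorem im_add_smul {A B : Matrix I I ℂ} (hA : Aᴴ = A) (hB : Bᴴ = B) :
    im (A + Complex.I • B) = B := by
  rw [im, conjTranspose_add, conjTranspose_smul, hA, hB]
  ext i j
  simp only [Matrix.add_apply, Matrix.smul_apply, Matrix.sub_apply, smul_eq_mul, Complex.star_def,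
    Complex.conj_I]
  linear_combination (-(B i j)) * Complex.I_sq

omit [Fintype I] in
theorem re_of_herm {A : Matrix I I ℂ} (hA : Aᴴ = A) : re A = A := by
  rw [re, hA, ← two_smul ℂ, smul_smul]; norm_num

omit [Fintype I] in
@[fun_prop] theorem continuous_re : Continuous (re : Matrix I I ℂ → _) := by
  unfold re
  fun_prop

omit [Fintype I] in
@[fun_prop] theorem continuous_im : Continuous (im : Matrix I I ℂ → _) := by
  unfold im
  fun_prop

theorem hsq_re_add_im (s : Matrix I I ℂ) : hsq s = hsq (re s) + hsq (im s) := by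
  have : ((hsq s : ℝ) : ℂ) = ((hsq (re s) + hsq (im s) : ℝ) : ℂ) := by
    rw [Complex.ofReal_add, hsq_eq_trace, hsq_eq_trace, hsq_eq_trace, re_herm, im_herm, re, im]
    have h1 : (sᴴ * s).trace = (s * sᴴ).trace := trace_mul_comm _ _
    simp only [Matrix.smul_mul, Matrix.mul_smul, trace_smul, Matrix.add_mul,
      Matrix.mul_add, Matrix.sub_mul, Matrix.mul_sub, trace_add, trace_sub, smul_eq_mul, h1]
    linear_combination ((-1 / 4 : ℂ) * ((s * s).trace - (s * sᴴ).trace - (s * sᴴ).trace +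
      (sᴴ * sᴴ).trace)) * Complex.I_sq
  exact_mod_cast this

theorem fn_re_le (s : Matrix I I ℂ) : fn (re s) ≤ fn s := by
  refine Real.sqrt_le_sqrt ?_
  rw [hsq_re_add_im s]
  linarith [hsq_nonneg (im s)]

theorem fn_im_le (s : Matrix I I ℂ) : fn (im s) ≤ fn s := by
  refine Real.sqrt_le_sqrt ?_
  rw [hsq_re_add_im s]
  linarith [hsq_nonneg (re s)]

/-- balls of the Frobenius norm are compact -/
theorem isCompact_hsq_le (r : ℝ) : IsCompact {s : Matrix I J ℂ | hsq s ≤ r} := by
  have h1 : IsClosed {s : Matrix I J ℂ | hsq s ≤ r} := isClosed_le continuous_hsq continuous_const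
  have h2 : IsCompact {s : I → J → ℂ | ∀ i, s i ∈ {v : J → ℂ | nsq v ≤ r}} :=
    isCompact_pi_infinite fun i => Vale.Agent.P251.G.isCompact_nsq_le r
  refine IsCompact.of_isClosed_subset h2 h1 ?_
  intro s hs i
  exact (Finset.single_le_sum (f := fun i => nsq (s i)) (fun i _ => nsq_nonneg (s i))
    (Finset.mem_univ i)).trans hs

end Vale.Agent.P093.ALine
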